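import Vale.Agent.P246.T.Spec

/-! # Block CC, part 1: one cell -/

namespace Vale.Agent.P246.T.CC

open Topology Metric Set

instance compDk (n : ℕ) : CompactSpace (Dk n) :=
  isCompact_iff_compactSpace.mp (isCompact_closedBall (0 : Fin n → ℝ) 1)

theorem norm_le (n : ℕ) (x : Dk n) : ‖(x : Fin n → ℝ)‖ ≤ 1 := mem_closedBall_zero_iff.1 x.2

theorem continuous_nm (n : ℕ) : Continuous fun x : Dk n => ‖(x : Fin n → ℝ)‖ := by fun_prop

theorem expd_zero (n : ℕ) (x : Dk n) : expd n 0 x = x := by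
  apply Subtype.ext
  have h := norm_le n x
  change ((1 + ((0 : I) : ℝ)) / max 1 ((1 + ((0 : I) : ℝ)) * ‖(x : Fin n → ℝ)‖)) •
    (x : Fin n → ℝ) = x
  have h0 : ((0 : I) : ℝ) = 0 := rfl
  rw [h0, add_zero, one_mul, max_eq_left h, div_one, one_smul]

theorem expd_bd (n : ℕ) (t : I) (x : Dk n) (h : ‖(x : Fin n → ℝ)‖ = 1) : expd n t x = x := by
  apply Subtype.ext
  change ((1 + (t : ℝ)) / max 1 ((1 + (t : ℝ)) * ‖(x : Fin n → ℝ)‖)) • (x : Fin n → ℝ) = x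
  have ht := t.2.1
  rw [h, mul_one, max_eq_right (by linarith), div_self (by linarith), one_smul]

theorem continuous_expd (n : ℕ) : Continuous fun q : I × Dk n => expd n q.1 q.2 := by
  have h1 : Continuous fun q : I × Dk n => (1 + (q.1 : ℝ)) := by fun_prop
  have h2 : Continuous fun q : I × Dk n => max 1 ((1 + (q.1 : ℝ)) * ‖(q.2 : Fin n → ℝ)‖) := by
    fun_prop
  have h3 : Continuous fun q : I × Dk n => (q.2 : Fin n → ℝ) := by fun_prop
  exact Continuous.subtype_mk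
    ((h1.div h2 fun q => (lt_max_of_lt_left one_pos).ne').smul h3) _

section One

variable {X : Type} [TopologicalSpace X] [T2Space X] {n : ℕ} {A B : Set X} {Φ : C(Dk n, X)}

theorem lt_or (x : Dk n) : ‖(x : Fin n → ℝ)‖ < 1 ∨ ‖(x : Fin n → ℝ)‖ = 1 :=
  (norm_le n x).lt_or_eq

theorem openV1 (hA : IsClosed A) (h : Attach n A B Φ) (U : Set (Dk n)) (hU : IsOpen U)
    (hU1 : ∀ x ∈ U, ‖(x : Fin n → ℝ)‖ < 1) : ∃ O : Set X, IsOpen O ∧ O ∩ B = Φ '' U := by
  refine ⟨(A ∪ Φ '' Uᶜ)ᶜ, (hA.union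
    (hU.isClosed_compl.isCompact.image Φ.continuous).isClosed).isOpen_compl, ?_⟩
  ext y
  constructor
  · rintro ⟨hy, hB⟩
    rw [h.eq] at hB
    rcases hB with hB | ⟨x, rfl⟩
    · exact absurd (Or.inl hB) hy
    · by_contra hn
      refine hy (Or.inr ⟨x, fun hx => hn ⟨x, hx, rfl⟩, rfl⟩)
  · rintro ⟨x, hx, rfl⟩
    refine ⟨?_, ?_⟩
    · rintro (h1 | ⟨x', hx', he⟩)
      · exact h.int x (hU1 x hx) h1
      · rcases lt_or x' with h2 | h2
        · exact hx' (h.inj x' x h2 (hU1 x hx) he ▸ hx)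
        · exact h.int x (hU1 x hx) (he ▸ h.bdry x' h2)
    · rw [h.eq]
      exact Or.inr ⟨x, rfl⟩

theorem openW1 : ∃ O : Set X, IsOpen O ∧
    O ∩ B = {y | y ∈ B ∧ ∀ x, Φ x = y → 1 / 2 < ‖(x : Fin n → ℝ)‖} := by
  have hc : IsClosed {x : Dk n | ‖(x : Fin n → ℝ)‖ ≤ 1 / 2} :=
    isClosed_le (continuous_nm n) continuous_const
  refine ⟨(Φ '' {x | ‖(x : Fin n → ℝ)‖ ≤ 1 / 2})ᶜ,
    (hc.isCompact.image Φ.continuous).isClosed.isOpen_compl, ?_⟩
  ext y
  constructor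
  · rintro ⟨hy, hB⟩
    refine ⟨hB, fun x hx => ?_⟩
    by_contra hn
    exact hy ⟨x, not_lt.1 hn, hx⟩
  · rintro ⟨hB, hy⟩
    refine ⟨?_, hB⟩
    rintro ⟨x, hx, he⟩
    exact absurd (hy x he) (not_lt.2 hx)

/-- the map from the disjoint union of `I × A` and `I × D^n` -/
noncomputable def qm (Φ : C(Dk n, X)) (hAB : A ⊆ B) (hm : ∀ x, Φ x ∈ B) :
    C((I × A) ⊕ (I × Dk n), I × B) :=
  ⟨Sum.elim (fun q => (q.1, ⟨q.2.1, hAB q.2.2⟩)) (fun q => (q.1, ⟨Φ q.2, hm q.2⟩)), by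
    refine continuous_sum_dom.2 ⟨?_, ?_⟩
    · exact Continuous.prodMk continuous_fst (Continuous.subtype_mk (by fun_prop) _)
    · exact Continuous.prodMk continuous_fst (Continuous.subtype_mk (by fun_prop) _)⟩

theorem qm_quot (hA : IsClosed A) (h : Attach n A B Φ) (hAB : A ⊆ B) (hm : ∀ x, Φ x ∈ B) :
    IsQuotientMap (qm Φ hAB hm) := by
  have hs : Function.Surjective (qm Φ hAB hm) := by
    rintro ⟨t, y, hy⟩
    rw [h.eq] at hy
    rcases hy with hy | ⟨x, rfl⟩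
    · exact ⟨Sum.inl (t, ⟨y, hy⟩), rfl⟩
    · exact ⟨Sum.inr (t, x), rfl⟩
  refine IsClosedMap.isQuotientMap ?_ (qm Φ hAB hm).continuous hs
  intro S hS
  have h1 : IsClosed ((fun q : I × A => ((q.1, ⟨q.2.1, hAB q.2.2⟩) : I × B)) ''
      (Sum.inl ⁻¹' S)) := by
    have he : IsClosedEmbedding (fun q : I × A => ((q.1, ⟨q.2.1, hAB q.2.2⟩) : I × B)) := by
      have : IsClosedEmbedding (Set.inclusion hAB) := by
        refine IsClosedEmbedding.of_continuous_injective_isClosedMap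
          (continuous_inclusion hAB) (Set.inclusion_injective hAB) ?_
        exact hA.isClosedMap_inclusion hAB
      exact IsClosedEmbedding.prodMap IsClosedEmbedding.id this
    exact he.isClosedMap _ (hS.preimage continuous_inl)
  have h2 : IsClosed ((fun q : I × Dk n => ((q.1, ⟨Φ q.2, hm q.2⟩) : I × B)) ''
      (Sum.inr ⁻¹' S)) := by
    have hc : Continuous (fun q : I × Dk n => ((q.1, ⟨Φ q.2, hm q.2⟩) : I × B)) :=
      Continuous.prodMk continuous_fst (Continuous.subtype_mk (by fun_prop) _)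
    exact ((hS.preimage continuous_inr).isCompact.image hc).isClosed
  convert h1.union h2 using 1
  ext z
  constructor
  · rintro ⟨q | q, hq, rfl⟩
    · exact Or.inl ⟨q, hq, rfl⟩
    · exact Or.inr ⟨q, hq, rfl⟩
  · rintro (⟨q, hq, rfl⟩ | ⟨q, hq, rfl⟩)
    · exact ⟨Sum.inl q, hq, rfl⟩
    · exact ⟨Sum.inr q, hq, rfl⟩

/-- the expansion homotopy on the disjoint union -/
noncomputable def em (Φ : C(Dk n, X)) (hAB : A ⊆ B) (hm : ∀ x, Φ x ∈ B) :
    C((I × A) ⊕ (I × Dk n), B) :=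
  ⟨Sum.elim (fun q => ⟨q.2.1, hAB q.2.2⟩) (fun q => ⟨Φ (expd n q.1 q.2), hm _⟩), by
    refine continuous_sum_dom.2 ⟨?_, ?_⟩
    · exact Continuous.subtype_mk (by fun_prop) _
    · exact Continuous.subtype_mk (Φ.continuous.comp (continuous_expd n)) _⟩

omit [T2Space X] in
theorem em_fac (h : Attach n A B Φ) (hAB : A ⊆ B) (hm : ∀ x, Φ x ∈ B)
    (a b : (I × A) ⊕ (I × Dk n)) (hab : qm Φ hAB hm a = qm Φ hAB hm b) :
    em Φ hAB hm a = em Φ hAB hm b := by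
  have key : ∀ (t : I) (x : Dk n), Φ x ∈ A → Φ (expd n t x) = Φ x := by
    intro t x hx
    rcases lt_or x with h2 | h2
    · exact absurd hx (h.int x h2)
    · rw [expd_bd n t x h2]
  apply Subtype.ext
  rcases a with ⟨t, y⟩ | ⟨t, x⟩ <;> rcases b with ⟨s, y'⟩ | ⟨s, x'⟩
  · have h1 : y.1 = y'.1 := congrArg (fun z : I × B => (z.2 : X)) hab
    exact h1
  · have h1 : y.1 = Φ x' := congrArg (fun z : I × B => (z.2 : X)) hab
    change y.1 = Φ (expd n s x')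
    rw [key s x' (h1 ▸ y.2), h1]
  · have h1 : Φ x = y'.1 := congrArg (fun z : I × B => (z.2 : X)) hab
    change Φ (expd n t x) = y'.1
    rw [key t x (h1 ▸ y'.2), h1]
  · have h0 : t = s := congrArg (fun z : I × B => z.1) hab
    have h1 : Φ x = Φ x' := congrArg (fun z : I × B => (z.2 : X)) hab
    subst h0
    change Φ (expd n t x) = Φ (expd n t x')
    rcases lt_or x with h2 | h2
    · rcases lt_or x' with h3 | h3
      · rw [h.inj x x' h2 h3 h1]
      · exact absurd (h1 ▸ h.bdry x' h3) (h.int x h2)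
    · rw [key t x (h.bdry x h2), key t x' (h1 ▸ h.bdry x h2), h1]

theorem htpy1 (hA : IsClosed A) (h : Attach n A B Φ) (hAB : A ⊆ B) (hm : ∀ x, Φ x ∈ B) :
    ∃ ρ : C(I × B, B), (∀ y, ρ (0, y) = y) ∧ (∀ t (y : B), (y : X) ∈ A → ρ (t, y) = y) ∧
      ∀ t x, (ρ (t, ⟨Φ x, hm x⟩) : X) = Φ (expd n t x) := by
  have hq := qm_quot hA h hAB hm
  obtain ⟨g, hg⟩ : ∃ g : I × B → B, ∀ a, g (qm Φ hAB hm a) = em Φ hAB hm a := by
    choose r hr using hq.surjective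
    exact ⟨fun z => em Φ hAB hm (r z), fun a => em_fac h hAB hm _ _ (hr _)⟩
  have hgc : Continuous g := by
    rw [hq.continuous_iff]
    exact (em Φ hAB hm).continuous.congr fun a => (hg a).symm
  have hA' : ∀ t (y : B), (y : X) ∈ A → g (t, y) = y := fun t y hy =>
    hg (Sum.inl (t, ⟨y.1, hy⟩))
  have hΦ' : ∀ t x, (g (t, ⟨Φ x, hm x⟩) : X) = Φ (expd n t x) := fun t x =>
    congrArg Subtype.val (hg (Sum.inr (t, x)))
  refine ⟨⟨g, hgc⟩, ?_, hA', hΦ'⟩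
  rintro ⟨y, hy⟩
  have hy' := hy
  rw [h.eq] at hy'
  rcases hy' with hy' | ⟨x, rfl⟩
  · exact hA' 0 ⟨y, hy⟩ hy'
  · apply Subtype.ext
    rw [ContinuousMap.coe_mk, hΦ', expd_zero]

end One

theorem cc1 : SpecCC1 := by
  intro X _ _ n A B Φ hA h
  have hAB : A ⊆ B := by rw [h.eq]; exact subset_union_left
  have hm : ∀ x, Φ x ∈ B := fun x => by rw [h.eq]; exact Or.inr ⟨x, rfl⟩
  obtain ⟨O, hO, hO'⟩ := openW1 (B := B) (Φ := Φ)
  obtain ⟨ρ, h1, h2, h3⟩ := htpy1 hA h hAB hm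
  exact
    { sub := hAB
      mem := fun _ => hm
      bdry := fun _ => h.bdry
      int := fun _ => h.int
      cover := fun y hy => by
        rw [h.eq] at hy
        exact hy.imp id fun ⟨x, hx⟩ => ⟨(), x, hx⟩
      inj := fun _ _ x x' hx hx' he => ⟨rfl, h.inj x x' hx hx' he⟩
      openV := fun _ U hU hU1 => openV1 hA h U hU hU1
      openW := ⟨O, hO, hO'.trans (by
        ext y
        exact ⟨fun hy => ⟨hy.1, fun _ => hy.2⟩, fun hy => ⟨hy.1, hy.2 ()⟩⟩)⟩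
      htpy := ⟨ρ, h1, h2, fun t _ x => h3 t x⟩ }

end Vale.Agent.P246.T.CC
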