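import Vale.Agent.P246.T.CC.CC1

/-! # Block CC, part 2: the cells over a cell, in a covering -/

namespace Vale.Agent.P246.T.CC

open Topology Metric Set

section Two

variable {G X E : Type} [Group G] [TopologicalSpace X] [T2Space X]
  [TopologicalSpace E] [MulAction G E] [ContinuousConstSMul G E] {p : C(E, X)}
  {n : ℕ} {A B : Set X} {Φ : C(Dk n, X)} {Ψ : C(Dk n, E)}

omit [T2Space X] [ContinuousConstSMul G E] in
/-- a neighbourhood on which `p` is injective -/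
theorem exists_inj (hp : IsQuotientCoveringMap p G) (e : E) :
    ∃ W : Set E, IsOpen W ∧ e ∈ W ∧ ∀ y ∈ W, ∀ z ∈ W, p y = p z → y = z := by
  obtain ⟨U, hU, h⟩ := hp.disjoint e
  obtain ⟨W, hWU, hW, he⟩ := mem_nhds_iff.1 hU
  refine ⟨W, hW, he, fun y hy z hz hyz => ?_⟩
  obtain ⟨g, hg⟩ := hp.apply_eq_iff_mem_orbit.1 hyz
  have hg1 : g = 1 := h g ⟨y, ⟨z, hWU hz, hg⟩, hWU hy⟩
  subst hg1
  exact hg.symm.trans (one_smul G z)

omit [T2Space X] in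
theorem p_gm (hp : IsQuotientCoveringMap p G) (hΨ : ∀ x, p (Ψ x) = Φ x) (g : G) (x : Dk n) :
    p (((gm g).comp Ψ) x) = Φ x :=
  (hp.map_smul g).trans (hΨ x)

theorem openV2 (hp : IsQuotientCoveringMap p G) (hA : IsClosed A) (h : Attach n A B Φ)
    (hΨ : ∀ x, p (Ψ x) = Φ x) (g : G) (U : Set (Dk n)) (hU : IsOpen U)
    (hU1 : ∀ x ∈ U, ‖(x : Fin n → ℝ)‖ < 1) :
    ∃ O : Set E, IsOpen O ∧ O ∩ p ⁻¹' B = ((gm g).comp Ψ) '' U := by
  have key : ∀ x0 : U, ∃ O : Set E, IsOpen O ∧ ((gm g).comp Ψ) x0 ∈ O ∧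
      O ∩ p ⁻¹' B ⊆ ((gm g).comp Ψ) '' U := by
    rintro ⟨x0, hx0⟩
    obtain ⟨W, hW, hxW, hinj⟩ := exists_inj hp (((gm g).comp Ψ) x0)
    obtain ⟨O, hO, hOB⟩ := openV1 hA h (U ∩ ((gm g).comp Ψ) ⁻¹' W)
      (hU.inter (hW.preimage ((gm g).comp Ψ).continuous)) (fun x hx => hU1 x hx.1)
    refine ⟨W ∩ p ⁻¹' O, hW.inter (hO.preimage p.continuous), ⟨hxW, ?_⟩, ?_⟩
    · have h1 : Φ x0 ∈ O ∩ B := by
        rw [hOB]
        exact ⟨x0, ⟨hx0, hxW⟩, rfl⟩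
      change p (((gm g).comp Ψ) x0) ∈ O
      rw [p_gm hp hΨ]
      exact h1.1
    · rintro y ⟨⟨hyW, hyO⟩, hyB⟩
      have h1 : p y ∈ O ∩ B := ⟨hyO, hyB⟩
      rw [hOB] at h1
      obtain ⟨x, ⟨hxU, hxW'⟩, hx⟩ := h1
      refine ⟨x, hxU, hinj _ hxW' y hyW ?_⟩
      rw [p_gm hp hΨ, hx]
  choose O hO hO1 hO2 using key
  refine ⟨⋃ x0 : U, O x0, isOpen_iUnion hO, ?_⟩
  ext y
  constructor
  · rintro ⟨hy, hyB⟩
    obtain ⟨x0, hx0⟩ := mem_iUnion.1 hy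
    exact hO2 x0 ⟨hx0, hyB⟩
  · rintro ⟨x, hx, rfl⟩
    refine ⟨mem_iUnion.2 ⟨⟨x, hx⟩, hO1 ⟨x, hx⟩⟩, ?_⟩
    change p (((gm g).comp Ψ) x) ∈ B
    rw [p_gm hp hΨ, h.eq]
    exact Or.inr ⟨x, rfl⟩

omit [T2Space X] [ContinuousConstSMul G E] in
theorem eq_of_zero (hp : IsQuotientCoveringMap p G) (γ δ : I → E) (hγ : Continuous γ)
    (hδ : Continuous δ) (h : ∀ t, p (γ t) = p (δ t)) (h0 : γ 0 = δ 0) (t : I) : γ t = δ t :=
  congrFun (hp.isCoveringMap.eq_of_comp_eq hγ hδ (funext h) 0 h0) t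

theorem htpy2 (hp : IsQuotientCoveringMap p G) (hA : IsClosed A) (h : Attach n A B Φ)
    (hΨ : ∀ x, p (Ψ x) = Φ x) (hm : ∀ g x, ((gm g).comp Ψ : C(Dk n, E)) x ∈ p ⁻¹' B) :
    ∃ ρ : C(I × (p ⁻¹' B : Set E), (p ⁻¹' B : Set E)), (∀ y, ρ (0, y) = y) ∧
      (∀ t (y : (p ⁻¹' B : Set E)), (y : E) ∈ p ⁻¹' A → ρ (t, y) = y) ∧
      ∀ t (g : G) x, (ρ (t, ⟨((gm g).comp Ψ) x, hm g x⟩) : E) = ((gm g).comp Ψ) (expd n t x) := by
  have hAB : A ⊆ B := by rw [h.eq]; exact subset_union_left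
  have hm1 : ∀ x, Φ x ∈ B := fun x => by rw [h.eq]; exact Or.inr ⟨x, rfl⟩
  obtain ⟨ρ, h1, h2, h3⟩ := htpy1 hA h hAB hm1
  let H : C(I × (p ⁻¹' B : Set E), X) :=
    ⟨fun q => (ρ (q.1, ⟨p q.2, q.2.2⟩) : X), continuous_subtype_val.comp
      (ρ.continuous.comp (Continuous.prodMk continuous_fst
        (Continuous.subtype_mk (by fun_prop) _)))⟩
  let f : C((p ⁻¹' B : Set E), E) := ⟨Subtype.val, continuous_subtype_val⟩
  have hH0 : ∀ a, H (0, a) = p (f a) := fun a => congrArg Subtype.val (h1 ⟨p a, a.2⟩)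
  let L := hp.isCoveringMap.liftHomotopy H f hH0
  have hL : ∀ q, p (L q) = H q := fun q =>
    congrFun (hp.isCoveringMap.liftHomotopy_lifts H f hH0) q
  have hL0 : ∀ y, L (0, y) = y := fun y => hp.isCoveringMap.liftHomotopy_zero H f hH0 y
  have hLB : ∀ q, L q ∈ p ⁻¹' B := fun q => by
    change p (L q) ∈ B
    rw [hL]
    exact (ρ _).2
  refine ⟨⟨fun q => ⟨L q, hLB q⟩, Continuous.subtype_mk L.continuous _⟩, fun y =>
    Subtype.ext (hL0 y), fun t y hy => Subtype.ext ?_, fun t g x => ?_⟩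
  · change L (t, y) = y
    refine eq_of_zero hp (fun s => L (s, y)) (fun _ => y)
      (L.continuous.comp (Continuous.prodMk continuous_id continuous_const)) continuous_const
      (fun s => ?_) (hL0 y) t
    rw [hL]
    exact congrArg Subtype.val (h2 s ⟨p y, y.2⟩ hy)
  · change L (t, ⟨((gm g).comp Ψ) x, hm g x⟩) = ((gm g).comp Ψ) (expd n t x)
    refine eq_of_zero hp (fun s => L (s, ⟨((gm g).comp Ψ) x, hm g x⟩))
      (fun s => ((gm g).comp Ψ) (expd n s x))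
      (L.continuous.comp (Continuous.prodMk continuous_id continuous_const))
      (((gm g).comp Ψ).continuous.comp ((continuous_expd n).comp
        (Continuous.prodMk continuous_id continuous_const)))
      (fun s => ?_) ?_ t
    · rw [hL, p_gm hp hΨ]
      have e1 : (⟨p (((gm g).comp Ψ) x), hm g x⟩ : B) = ⟨Φ x, hm1 x⟩ :=
        Subtype.ext (p_gm hp hΨ g x)
      change (ρ (s, ⟨p (((gm g).comp Ψ) x), hm g x⟩) : X) = _
      rw [e1, h3]
    · change L (0, ⟨((gm g).comp Ψ) x, hm g x⟩) = ((gm g).comp Ψ) (expd n 0 x)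
      rw [hL0, expd_zero]

end Two

theorem cc2 : SpecCC2 := by
  intro G X E _ _ _ _ _ _ p hp n A B Φ Ψ hA h hΨ
  have hAB : A ⊆ B := by rw [h.eq]; exact subset_union_left
  have hm1 : ∀ x, Φ x ∈ B := fun x => by rw [h.eq]; exact Or.inr ⟨x, rfl⟩
  have hpg : ∀ (g : G) (x : Dk n), p (((gm g).comp Ψ) x) = Φ x := fun g x => p_gm hp hΨ g x
  have hm : ∀ (g : G) x, ((gm g).comp Ψ : C(Dk n, E)) x ∈ p ⁻¹' B := fun g x => by
    change p (((gm g).comp Ψ) x) ∈ B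
    rw [hpg]
    exact hm1 x
  have hlift : ∀ (y : E) (x : Dk n), Φ x = p y → ∃ g : G, ((gm g).comp Ψ) x = y := by
    intro y x hx
    obtain ⟨g, hg⟩ := hp.apply_eq_iff_mem_orbit.1 (hx.symm.trans (hΨ x).symm)
    exact ⟨g, hg⟩
  refine
    { sub := fun y hy => hAB hy
      mem := hm
      bdry := fun g x hx => ?_
      int := fun g x hx hxA => ?_
      cover := fun y hy => ?_
      inj := fun g g' x x' hx hx' he => ?_
      openV := fun g U hU hU1 => openV2 hp hA h hΨ g U hU hU1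
      openW := ?_
      htpy := htpy2 hp hA h hΨ hm }
  · change p (((gm g).comp Ψ) x) ∈ A
    rw [hpg]
    exact h.bdry x hx
  · change p (((gm g).comp Ψ) x) ∈ A at hxA
    rw [hpg] at hxA
    exact h.int x hx hxA
  · change p y ∈ B at hy
    rw [h.eq] at hy
    rcases hy with hy | ⟨x, hx⟩
    · exact Or.inl hy
    · obtain ⟨g, hg⟩ := hlift y x hx
      exact Or.inr ⟨g, x, hg⟩
  · have e1 : Φ x = Φ x' := by rw [← hpg g x, ← hpg g' x', he]
    have e2 := h.inj x x' hx hx' e1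
    subst e2
    have := hp.isCancelSMul
    exact ⟨IsCancelSMul.right_cancel _ _ (Ψ x) he, rfl⟩
  · obtain ⟨O, hO, hO'⟩ := openW1 (B := B) (Φ := Φ)
    refine ⟨p ⁻¹' O, hO.preimage p.continuous, ?_⟩
    ext y
    constructor
    · rintro ⟨hyO, hyB⟩
      have h1 : p y ∈ O ∩ B := ⟨hyO, hyB⟩
      rw [hO'] at h1
      exact ⟨hyB, fun g x hx => h1.2 x (by rw [← hpg g x, hx])⟩
    · rintro ⟨hyB, hy⟩
      have h1 : p y ∈ O ∩ B := by
        rw [hO']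
        refine ⟨hyB, fun x hx => ?_⟩
        obtain ⟨g, hg⟩ := hlift y x hx
        exact hy g x hg
      exact ⟨h1.1, hyB⟩

end Vale.Agent.P246.T.CC
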